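import Vale.Agent.P011.H921.L2.HermG

/-!
# Universal binary hermitian forms in characteristic two

Over a field `F` of characteristic two with `F = F ^ 2 + t F ^ 2` for every `t` which is not a
square, the binary hermitian forms of every separable quadratic extension are universal.
-/

open Module

namespace Vale.Agent.P011.H921

open Vale.Agent.P011.Even (BinUniv)

section

variable {F L : Type} [Field F] [Field L] [Algebra F L] [StarRing L]

/-- The trace is onto. -/
theorem exists_trace (hfix : ∀ x : L, star x = x ↔ x ∈ Set.range (algebraMap F L))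
    (hne : ∃ c : L, star c ≠ c) (h2 : (2 : F) = 0) (g : F) :
    ∃ x : L, x + star x = algebraMap F L g := by
  obtain ⟨c, hc⟩ := hne
  have h2L : (2 : L) = 0 := by rw [← map_ofNat (algebraMap F L) 2, h2, map_zero]
  have hst : ∀ a : F, star (algebraMap F L a) = algebraMap F L a := fun a => (hfix _).mpr ⟨a, rfl⟩
  obtain ⟨τ, hτ⟩ := (hfix (c + star c)).mp (by rw [star_add, star_star, add_comm])
  have hτ0 : algebraMap F L τ ≠ 0 := by
    rw [hτ]
    intro h
    apply hc
    linear_combination h - c * h2L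
  refine ⟨algebraMap F L g / algebraMap F L τ * c, ?_⟩
  rw [star_mul', star_div₀, hst, hst, ← mul_add, ← hτ, div_mul_cancel₀ _ hτ0]

/-- **Binary hermitian forms are universal** in characteristic two. -/
theorem binUniv_of_sqb (h2 : (2 : F) = 0)
    (hsq : ∀ t : F, ¬ IsSquare t → ∀ x : F, ∃ u w : F, x = u ^ 2 + t * w ^ 2)
    (hfix : ∀ x : L, star x = x ↔ x ∈ Set.range (algebraMap F L))
    (hne : ∃ c : L, star c ≠ c) : BinUniv L := by
  intro a b c ha hb hc ha0 hb0 hc0
  have h2L : (2 : L) = 0 := by rw [← map_ofNat (algebraMap F L) 2, h2, map_zero]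
  have hst : ∀ a : F, star (algebraMap F L a) = algebraMap F L a := fun a => (hfix _).mpr ⟨a, rfl⟩
  obtain ⟨α, rfl⟩ := (hfix a).mp ha
  obtain ⟨β, rfl⟩ := (hfix b).mp hb
  obtain ⟨γ, rfl⟩ := (hfix c).mp hc
  have hα0 : α ≠ 0 := by rintro rfl; exact ha0 (map_zero _)
  have hβ0 : β ≠ 0 := by rintro rfl; exact hb0 (map_zero _)
  by_cases hs : IsSquare (α / β)
  · obtain ⟨g, hg⟩ := hs
    have hg' : α = β * g ^ 2 := by
      rw [sq, ← hg, mul_div_cancel₀ _ hβ0]
    have hg0 : g ≠ 0 := by
      rintro rfl
      rw [zero_pow two_ne_zero, mul_zero] at hg'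
      exact hα0 hg'
    obtain ⟨x, hx⟩ := exists_trace hfix hne h2 (γ / β - 1)
    have hG0 : algebraMap F L g ≠ 0 := (map_ne_zero _).mpr hg0
    have hB0 : algebraMap F L β ≠ 0 := (map_ne_zero _).mpr hβ0
    refine ⟨x / algebraMap F L g, x + 1, ?_⟩
    have e1 : algebraMap F L α = algebraMap F L β * algebraMap F L g ^ 2 := by
      rw [hg', map_mul, map_pow]
    have e2 : algebraMap F L γ = algebraMap F L β * (1 + (x + star x)) := by
      rw [hx, map_sub, map_div₀, map_one, add_sub_cancel, mul_div_cancel₀ _ hB0]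
    rw [star_div₀, star_add, star_one, hst, e1, e2]
    field_simp
    linear_combination (x * star x) * h2L
  · obtain ⟨u, w, huw⟩ := hsq _ hs (γ / β)
    have e1 : γ = β * u ^ 2 + α * w ^ 2 := by
      have h3 : γ = β * (γ / β) := (mul_div_cancel₀ _ hβ0).symm
      rw [h3, huw]
      field_simp
    refine ⟨algebraMap F L w, algebraMap F L u, ?_⟩
    rw [hst, hst, e1, map_add, map_mul, map_mul, map_pow, map_pow]
    ring

end

end Vale.Agent.P011.H921
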