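import Vale.Agent.P011.Even.HermClass

/-!
# Hermitian forms whose binary forms are universal, in every characteristic

The classification of hermitian matrices by rank and discriminant, over a field with a nontrivial
involution, without a condition on the characteristic.
-/

open Module Matrix

namespace Vale.Agent.P011.H921

open Vale.Agent.P011.Even (BinUniv HForm matForm matForm_h matForm_nondeg det_diag_last)

section space

variable {L : Type} [Field L] [StarRing L] {V : Type} [AddCommGroup V] [Module L V]

/-- A nondegenerate hermitian form on a nonzero space has an anisotropic vector. -/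
theorem exists_ne (B : HForm L V) (hne : ∃ c : L, star c ≠ c) (hB : B.Nondeg) {v : V}
    (hv : v ≠ 0) : ∃ x, B.h x x ≠ 0 := by
  by_contra hcon
  push Not at hcon
  apply hv
  apply hB
  intro y
  by_contra hy
  have h1 : ∀ z, B.h v z + B.h z v = 0 := by
    intro z
    have := hcon (v + z)
    rw [B.add_left, B.add_right, B.add_right, hcon, hcon, zero_add, add_zero] at this
    exact this
  have h2 : ∀ t : L, t + star t = 0 := by
    intro t
    have h3 := h1 (star (t / B.h v y) • y)
    have h4 : B.h v (star (t / B.h v y) • y) = t := by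
      rw [B.smul_right, star_star, mul_div_cancel₀ t hy]
    rw [← B.symm v, h4] at h3
    exact h3
  have h5 : (1 : L) + 1 = 0 := by
    have := h2 1
    rwa [star_one] at this
  obtain ⟨c, hc⟩ := hne
  apply hc
  have h6 := h2 c
  linear_combination h6 - c * h5

/-- A nondegenerate form of rank at least two represents `1`. -/
theorem exists_one (B : HForm L V) (hne : ∃ c : L, star c ≠ c) (hU : BinUniv L) (hB : B.Nondeg)
    [FiniteDimensional L V] (hV : 2 ≤ finrank L V) : ∃ e, B.h e e = 1 := by
  have : Nontrivial V := Module.nontrivial_of_finrank_pos (R := L) (by omega)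
  obtain ⟨v, hv⟩ := _root_.exists_ne (0 : V)
  obtain ⟨x, hx⟩ := exists_ne B hne hB hv
  have h3 := B.finrank_perp hx
  have : Nontrivial (LinearMap.ker (B.lin x)) :=
    Module.nontrivial_of_finrank_pos (R := L) (by omega)
  obtain ⟨v', hv'⟩ := _root_.exists_ne (0 : LinearMap.ker (B.lin x))
  obtain ⟨⟨y, hyx⟩, hy⟩ := exists_ne (B.sub _) hne (B.perp_nondeg hB hx) hv'
  have hyx' : B.h y x = 0 := hyx
  have hxy : B.h x y = 0 := by rw [← B.symm, hyx', star_zero]
  obtain ⟨p, q, hpq⟩ := hU (B.h x x) (B.h y y) 1 (B.symm _ _) (B.symm _ _) (star_one L) hx hy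
    one_ne_zero
  refine ⟨p • x + q • y, ?_⟩
  rw [B.add_left, B.add_right, B.add_right, B.smul_left, B.smul_left, B.smul_left, B.smul_left,
    B.smul_right, B.smul_right, B.smul_right, B.smul_right, hxy, hyx', ← hpq]
  ring

end space

section basis

variable {L : Type} [Field L] [StarRing L]

/-- Normal form of a nondegenerate hermitian form. -/
theorem exists_basis (hne : ∃ c : L, star c ≠ c) (hU : BinUniv L) : ∀ (n : ℕ) (V : Type)
    [AddCommGroup V] [Module L V] [FiniteDimensional L V] (B : HForm L V), B.Nondeg →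
    finrank L V = n + 1 → ∃ (v : Basis (Fin (n + 1)) L V) (δ : L), ∀ i j, B.h (v i) (v j) =
      Matrix.diagonal (fun i => if i = Fin.last n then δ else 1) i j := by
  intro n
  induction n with
  | zero =>
    intro V _ _ _ B hB hV
    let v := Module.finBasisOfFinrankEq L V hV
    refine ⟨v, B.h (v 0) (v 0), fun i j => ?_⟩
    have hi : i = 0 := Fin.ext (by omega)
    have hj : j = 0 := Fin.ext (by omega)
    subst hi hj
    rw [Matrix.diagonal_apply_eq, if_pos]
    rfl
  | succ n ih =>
    intro V _ _ _ B hB hV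
    obtain ⟨e, he⟩ := exists_one B hne hU hB (by omega)
    have he0 : B.h e e ≠ 0 := by rw [he]; exact one_ne_zero
    obtain ⟨w, δ, hw⟩ := ih (LinearMap.ker (B.lin e)) (B.sub _) (B.perp_nondeg hB he0)
      (by have := B.finrank_perp he0; omega)
    let v : Basis (Fin (n + 1 + 1)) L V := Basis.mkFinCons e w
      (by
        intro c x hx hc
        have hx' : B.h x e = 0 := hx
        have := congrArg (fun z => B.h z e) hc
        simpa [B.add_left, B.smul_left, hx', he] using this)
      (fun z => ⟨_, B.perp_mem z he0⟩)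
    have hv0 : v 0 = e := by simp [v]
    have hvs : ∀ i : Fin (n + 1), v i.succ = (w i : V) := by intro i; simp [v]
    have hwe : ∀ i, B.h (w i : V) e = 0 := fun i => (w i).2
    have hew : ∀ i, B.h e (w i : V) = 0 := fun i => by rw [← B.symm, hwe, star_zero]
    refine ⟨v, δ, fun i j => ?_⟩
    induction i using Fin.cases with
    | zero =>
      induction j using Fin.cases with
      | zero =>
        rw [hv0, he, Matrix.diagonal_apply_eq, if_neg]
        exact (Fin.last_pos).ne
      | succ j =>
        rw [hv0, hvs, hew, Matrix.diagonal_apply_ne]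
        exact (Fin.succ_ne_zero j).symm
    | succ i =>
      induction j using Fin.cases with
      | zero =>
        rw [hv0, hvs, hwe, Matrix.diagonal_apply_ne]
        exact Fin.succ_ne_zero i
      | succ j =>
        rw [hvs, hvs]
        have h3 := hw i j
        change B.h (w i : V) (w j : V) = _ at h3
        rw [h3]
        by_cases hij : i = j
        · subst hij
          rw [Matrix.diagonal_apply_eq, Matrix.diagonal_apply_eq]
          congr 1
          rw [← Fin.succ_last, Fin.succ_inj]
        · rw [Matrix.diagonal_apply_ne _ hij,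
            Matrix.diagonal_apply_ne _ (fun h => hij (Fin.succ_inj.mp h))]

end basis

section mat

variable {L : Type} [Field L] [StarRing L]

theorem exists_normal (hne : ∃ c : L, star c ≠ c) (hU : BinUniv L) {n : ℕ}
    (H : Matrix (Fin (n + 1)) (Fin (n + 1)) L) (hH : Hᴴ = H) (hd : H.det ≠ 0) :
    ∃ (P : Matrix (Fin (n + 1)) (Fin (n + 1)) L) (δ : L), P.det ≠ 0 ∧
      P * H * Pᴴ = Matrix.diagonal (fun i => if i = Fin.last n then δ else 1) := by
  obtain ⟨v, δ, hv⟩ := exists_basis hne hU n (Fin (n + 1) → L) (matForm H hH)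
    (matForm_nondeg H hH hd) (Module.finrank_fin_fun L)
  let P : Matrix (Fin (n + 1)) (Fin (n + 1)) L := Matrix.of fun i => v i
  refine ⟨P, δ, ?_, ?_⟩
  · have h1 : P.transpose = (Pi.basisFun L (Fin (n + 1))).toMatrix v := by
      ext i j
      rw [Matrix.transpose_apply, Basis.toMatrix_apply, Pi.basisFun_repr]
      rfl
    rw [← Matrix.det_transpose, h1]
    intro h0
    have h3 := (Pi.basisFun L (Fin (n + 1))).toMatrix_mul_toMatrix_flip v
    have h4 := congrArg Matrix.det h3
    rw [Matrix.det_mul, h0, zero_mul, Matrix.det_one] at h4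
    exact zero_ne_one h4
  · ext i j
    rw [← hv, matForm_h, Matrix.mul_apply]
    simp only [Matrix.mul_apply, Finset.sum_mul, Matrix.conjTranspose_apply]
    rw [Finset.sum_comm]
    rfl

/-- **Hermitian matrices over a field with a nontrivial involution and universal binary forms are
classified by the discriminant**, in every characteristic. -/
theorem herm_classG (hne : ∃ c : L, star c ≠ c) (hU : BinUniv L) {n : ℕ}
    (H H' : Matrix (Fin n) (Fin n) L) (hH : Hᴴ = H) (hH' : H'ᴴ = H') (hd : H.det ≠ 0)
    (hd' : H'.det ≠ 0) (hdisc : ∃ z, H.det * H'.det = z * star z) :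
    ∃ Q : Matrix (Fin n) (Fin n) L, Q.det ≠ 0 ∧ Q * H * Qᴴ = H' := by
  rcases Nat.eq_zero_or_pos n with rfl | hn
  · refine ⟨1, by simp, ?_⟩
    ext i
    exact i.elim0
  obtain ⟨n, rfl⟩ : ∃ k, n = k + 1 := ⟨n - 1, by omega⟩
  obtain ⟨z, hz⟩ := hdisc
  obtain ⟨P, δ, hP, hPH⟩ := exists_normal hne hU H hH hd
  obtain ⟨P', δ', hP', hPH'⟩ := exists_normal hne hU H' hH' hd'
  have e1 := congrArg Matrix.det hPH
  have e2 := congrArg Matrix.det hPH'
  rw [det_diag_last, Matrix.det_mul, Matrix.det_mul, Matrix.det_conjTranspose] at e1 e2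
  have hδ0 : δ ≠ 0 := by
    rw [← e1]
    exact mul_ne_zero (mul_ne_zero hP hd) ((star_ne_zero).mpr hP)
  have hdetH : star H.det = H.det := by rw [← Matrix.det_conjTranspose, hH]
  have hδs : star δ = δ := by
    rw [← e1, star_mul', star_mul', star_star, hdetH]; ring
  -- the scalar relating the two normal forms
  let w : L := P.det * P'.det * z / δ
  have hw : w * δ * star w = δ' := by
    simp only [w]
    rw [star_div₀, star_mul', star_mul', hδs]
    field_simp
    rw [← e2]
    have e3 : P.det * star P.det * (P'.det * star P'.det) * (z * star z) =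
      δ * (P'.det * H'.det * star P'.det) := by
      rw [← hz, ← e1]; ring
    linear_combination e3
  have hδ'0 : δ' ≠ 0 := by
    rw [← e2]
    exact mul_ne_zero (mul_ne_zero hP' hd') ((star_ne_zero).mpr hP')
  have hw0 : w ≠ 0 := by
    intro h0
    rw [h0, zero_mul, zero_mul] at hw
    exact hδ'0 hw.symm
  let W : Matrix (Fin (n + 1)) (Fin (n + 1)) L :=
    Matrix.diagonal (fun i => if i = Fin.last n then w else 1)
  have hW : W * Matrix.diagonal (fun i => if i = Fin.last n then δ else 1) * Wᴴ =
      Matrix.diagonal (fun i => if i = Fin.last n then δ' else 1) := by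
    simp only [W]
    rw [Matrix.diagonal_conjTranspose, Matrix.diagonal_mul_diagonal, Matrix.diagonal_mul_diagonal]
    congr 1
    funext i
    rw [Pi.star_apply]
    split_ifs
    · exact hw
    · rw [star_one, mul_one, mul_one]
  have hunit : IsUnit P'.det := isUnit_iff_ne_zero.mpr hP'
  refine ⟨P'⁻¹ * W * P, ?_, ?_⟩
  · rw [Matrix.det_mul, Matrix.det_mul, det_diag_last]
    refine mul_ne_zero (mul_ne_zero ?_ hw0) hP
    rw [Matrix.det_nonsing_inv]
    simpa using hP'
  · have h3 : P'⁻¹ * W * P * H * (P'⁻¹ * W * P)ᴴ = P'⁻¹ * (W * (P * H * Pᴴ) * Wᴴ) * P'⁻¹ᴴ := by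
      rw [Matrix.conjTranspose_mul, Matrix.conjTranspose_mul]
      simp only [Matrix.mul_assoc]
    rw [h3, hPH, hW, ← hPH']
    have h4 : P'⁻¹ * P' = 1 := Matrix.nonsing_inv_mul P' hunit
    have h5 : P'ᴴ * P'⁻¹ᴴ = 1 := by
      rw [← Matrix.conjTranspose_mul, h4, Matrix.conjTranspose_one]
    calc P'⁻¹ * (P' * H' * P'ᴴ) * P'⁻¹ᴴ = (P'⁻¹ * P') * H' * (P'ᴴ * P'⁻¹ᴴ) := by
          simp only [Matrix.mul_assoc]
      _ = H' := by rw [h4, h5, Matrix.one_mul, Matrix.mul_one]

end mat

end Vale.Agent.P011.H921
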