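import Vale.Agent.P011.H921.L2.Bin
import Vale.Agent.P011.H558.C2.Sqb

/-!
# Binary hermitian forms over the completions in characteristic two
-/

open Module

namespace Vale.Agent.P011.H921

open Vale.Agent.P011.H738 Vale.Agent.P011.H271

/-- **Binary hermitian forms over a quadratic extension of a completion are universal**, in
characteristic two. -/
theorem binUniv_two {k : Type} [Field k] [GFF k] (h2 : (2 : k) = 0) (v : Place k) {L : Type}
    [Field L] [Algebra v.comp L] [StarRing L]
    (hfix : ∀ x : L, star x = x ↔ x ∈ Set.range (algebraMap v.comp L))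
    (hne : ∃ c : L, star c ≠ c) : Even.BinUniv L :=
  binUniv_of_sqb (by rw [← map_ofNat (algebraMap k v.comp) 2, h2, map_zero])
    (fun _ ht x => H558.C2.sqb_comp h2 v ht x) hfix hne

end Vale.Agent.P011.H921
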